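import Vale.Agent.Lib.P047.Dual.Kraw
import Vale.Agent.Lib.P047.Unate

/-!
# P047: dual certificates for the level-one sum

If `g : ℕ → ℤ` has `kraw N k g = 0` for all `k ≤ d`, then the function `x ↦ g(negc x)` is
orthogonal to every function of degree at most `d` on the `N`-cube, so for Boolean `f` of degree
at most `d`: `c 2^N ∑_i f̂({i}) = ∑_x f(x) (c ∑_i x_i + g(negc x)) ≤ ∑_w C(N,w) |c (N - 2w) + g(w)|`.
-/

namespace Vale.Agent.Lib.P047

open Finset

variable {ι : Type*} [Fintype ι] [DecidableEq ι]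

/-- A function of the number of `-1` coordinates all of whose character sums of order at most
`d` vanish is orthogonal to every Boolean function of degree at most `d`. -/
theorem sum_mul_negc_eq_zero (f : (ι → ℤˣ) → ℤˣ) (d : ℕ) (hd : degree f ≤ d) (g : ℕ → ℤ)
    (hK : ∀ k, k ≤ d → kraw (Fintype.card ι) k g = 0) :
    ∑ x : ι → ℤˣ, ((f x : ℤ) : ℝ) * ((g (negc x) : ℤ) : ℝ) = 0 := by
  have key : ∀ S : Finset ι, fourier f S *
      ∑ x : ι → ℤˣ, (∏ j ∈ S, ((x j : ℤ) : ℝ)) * ((g (negc x) : ℤ) : ℝ) = 0 := by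
    intro S
    by_cases hS : S.card ≤ d
    · have h1 : ∑ x : ι → ℤˣ, (∏ j ∈ S, ((x j : ℤ) : ℝ)) * ((g (negc x) : ℤ) : ℝ)
          = ((kraw (Fintype.card ι) S.card g : ℤ) : ℝ) := by
        rw [← sum_chi_negc S g]
        simp only [Int.cast_sum, Int.cast_mul, Int.cast_prod]
      rw [h1, hK _ hS, Int.cast_zero, mul_zero]
    · have h0 : fourier f S = 0 := by
        by_contra hne
        exact hS ((card_le_degree f S hne).trans hd)
      rw [h0, zero_mul]
  calc ∑ x : ι → ℤˣ, ((f x : ℤ) : ℝ) * ((g (negc x) : ℤ) : ℝ)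
      = ∑ x : ι → ℤˣ, ∑ S : Finset ι,
          fourier f S * ((∏ j ∈ S, ((x j : ℤ) : ℝ)) * ((g (negc x) : ℤ) : ℝ)) := by
        apply Finset.sum_congr rfl
        intro x _
        rw [fourier_inversion f x, Finset.sum_mul]
        apply Finset.sum_congr rfl
        intro S _
        rw [mul_assoc]
    _ = ∑ S : Finset ι, fourier f S *
          ∑ x : ι → ℤˣ, (∏ j ∈ S, ((x j : ℤ) : ℝ)) * ((g (negc x) : ℤ) : ℝ) := by
        rw [Finset.sum_comm]
        apply Finset.sum_congr rfl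
        intro S _
        rw [Finset.mul_sum]
    _ = 0 := Finset.sum_eq_zero (fun S _ => key S)

omit [DecidableEq ι] in
/-- The sum of the coordinates of a point of the cube. -/
theorem ce_sum_coord (x : ι → ℤˣ) :
    ∑ i, ((x i : ℤˣ) : ℤ) = (Fintype.card ι : ℤ) - 2 * (negc x : ℤ) := by
  have h1 : (1 : ℤˣ) ≠ -1 := by decide
  have h : ∀ i, ((x i : ℤˣ) : ℤ) = 1 - 2 * (if x i = -1 then 1 else 0) := by
    intro i
    rcases Int.units_eq_one_or (x i) with h | h
    · rw [h]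
      simp [h1]
    · rw [h]
      simp
  rw [Finset.sum_congr rfl (fun i _ => h i), Finset.sum_sub_distrib, ← Finset.mul_sum,
    Finset.sum_boole]
  simp [negc]

/-- The level-one sum as a sum over the cube. -/
theorem ce_level_one (f : (ι → ℤˣ) → ℤˣ) :
    (2 : ℝ) ^ Fintype.card ι * ∑ i, fourier f {i} =
      ∑ x : ι → ℤˣ, ((f x : ℤ) : ℝ) *
        (((Fintype.card ι : ℤ) - 2 * (negc x : ℤ) : ℤ) : ℝ) := by
  have h2 : (2 : ℝ) ^ Fintype.card ι ≠ 0 := by positivity
  have h1 : ∀ i : ι, (2 : ℝ) ^ Fintype.card ι * fourier f {i} =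
      ∑ x : ι → ℤˣ, ((f x : ℤ) : ℝ) * ((x i : ℤ) : ℝ) := by
    intro i
    unfold fourier
    rw [mul_comm, div_mul_cancel₀ _ h2]
    apply Finset.sum_congr rfl
    intro x _
    rw [Finset.prod_singleton]
  rw [Finset.mul_sum, Finset.sum_congr rfl (fun i _ => h1 i), Finset.sum_comm]
  apply Finset.sum_congr rfl
  intro x _
  rw [← Finset.mul_sum, ← ce_sum_coord x, Int.cast_sum]

/-- The sum over the cube of a function of the number of `-1` coordinates. -/
theorem ce_sum_abs (c : ℕ) (g : ℕ → ℤ) :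
    ∑ x : ι → ℤˣ, |(c : ℤ) * ((Fintype.card ι : ℤ) - 2 * (negc x : ℤ)) + g (negc x)| =
      certB (Fintype.card ι) c g := by
  have h := sum_chi_negc (∅ : Finset ι)
    (fun w => |(c : ℤ) * ((Fintype.card ι : ℤ) - 2 * (w : ℤ)) + g w|)
  simp only [Finset.prod_empty, one_mul, Finset.card_empty] at h
  rw [h]
  simp [kraw, certB]

/-- The dual-certificate bound for the signed level-one sum. -/
theorem level_one_le_of_cert (f : (ι → ℤˣ) → ℤˣ) (d : ℕ) (hd : degree f ≤ d) (c : ℕ)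
    (g : ℕ → ℤ) (hK : ∀ k, k ≤ d → kraw (Fintype.card ι) k g = 0) :
    (c : ℝ) * 2 ^ Fintype.card ι * ∑ i, fourier f {i} ≤
      ((certB (Fintype.card ι) c g : ℤ) : ℝ) := by
  have h0 := sum_mul_negc_eq_zero f d hd g hK
  have hB := ce_level_one f
  have e : (c : ℝ) * 2 ^ Fintype.card ι * ∑ i, fourier f {i} =
      ∑ x : ι → ℤˣ, ((f x : ℤ) : ℝ) *
        (((c : ℤ) * ((Fintype.card ι : ℤ) - 2 * (negc x : ℤ)) + g (negc x) : ℤ) : ℝ) := by
    have e1 : ∑ x : ι → ℤˣ, ((f x : ℤ) : ℝ) *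
          (((c : ℤ) * ((Fintype.card ι : ℤ) - 2 * (negc x : ℤ)) + g (negc x) : ℤ) : ℝ)
        = (c : ℝ) * ∑ x : ι → ℤˣ, ((f x : ℤ) : ℝ) *
            (((Fintype.card ι : ℤ) - 2 * (negc x : ℤ) : ℤ) : ℝ)
          + ∑ x : ι → ℤˣ, ((f x : ℤ) : ℝ) * ((g (negc x) : ℤ) : ℝ) := by
      rw [Finset.mul_sum, ← Finset.sum_add_distrib]
      apply Finset.sum_congr rfl
      intro x _
      push_cast
      ring
    rw [e1, h0, add_zero, ← hB]
    ring
  rw [e, ← ce_sum_abs c g, Int.cast_sum]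
  apply Finset.sum_le_sum
  intro x _
  rw [Int.cast_abs]
  generalize (((c : ℤ) * ((Fintype.card ι : ℤ) - 2 * (negc x : ℤ)) + g (negc x) : ℤ) : ℝ) = A
  rcases Int.units_eq_one_or (f x) with h | h
  · rw [h]
    simp only [Units.val_one, Int.cast_one, one_mul]
    exact le_abs_self A
  · rw [h]
    simp only [Units.val_neg, Units.val_one, Int.cast_neg, Int.cast_one, neg_mul, one_mul]
    exact neg_le_abs A

/-- The dual-certificate bound for the sum of absolute values. -/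
theorem level_one_abs_le_of_cert (f : (ι → ℤˣ) → ℤˣ) (d : ℕ) (hd : degree f ≤ d) (c : ℕ)
    (g : ℕ → ℤ) (hK : ∀ k, k ≤ d → kraw (Fintype.card ι) k g = 0) :
    (c : ℝ) * 2 ^ Fintype.card ι * ∑ i, |fourier f {i}| ≤
      ((certB (Fintype.card ι) c g : ℤ) : ℝ) := by
  classical
  obtain ⟨s, hs⟩ : ∃ s : ι → ℤˣ, ∀ i, ((s i : ℤ) : ℝ) * fourier f {i} = |fourier f {i}| := by
    refine ⟨fun i => if 0 ≤ fourier f {i} then 1 else -1, fun i => ?_⟩
    dsimp only
    by_cases h : 0 ≤ fourier f {i}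
    · rw [if_pos h, abs_of_nonneg h]
      simp
    · rw [if_neg h, abs_of_neg (not_le.mp h)]
      simp
  have h2 := level_one_le_of_cert (fun x => f (s * x)) d (by rw [degree_mul]; exact hd) c g hK
  have e : ∀ i, fourier (fun x => f (s * x)) {i} = |fourier f {i}| := by
    intro i
    rw [fourier_mul, Finset.prod_singleton, hs i]
  rw [Finset.sum_congr rfl (fun i _ => e i)] at h2
  exact h2

end Vale.Agent.Lib.P047
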