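import Vale.Agent.Lib.P047.Granular

/-!
# P047: character sums of functions of the number of `-1` coordinates

`negc x` is the number of coordinates of `x` equal to `-1`. For `g : ℕ → ℤ` and a set `S` of
`k` coordinates of the `N`-cube,
`∑_x χ_S(x) g(negc x) = ∑_{a ≤ k} ∑_{b ≤ N - k} (-1)^a C(k,a) C(N-k,b) g(a+b)`.
-/

namespace Vale.Agent.Lib.P047

open Finset

variable {ι : Type*} [Fintype ι] [DecidableEq ι]

/-- The number of coordinates of `x` equal to `-1`. -/
def negc (x : ι → ℤˣ) : ℕ := (univ.filter fun i => x i = -1).card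

/-- `kraw N k g = ∑_{a ≤ k} ∑_{b ≤ N - k} (-1)^a C(k,a) C(N-k,b) g(a+b)`. -/
def kraw (N k : ℕ) (g : ℕ → ℤ) : ℤ :=
  ∑ a ∈ range (k + 1), ∑ b ∈ range (N - k + 1),
    (-1) ^ a * (k.choose a : ℤ) * ((N - k).choose b : ℤ) * g (a + b)

/-- `certB N c g = ∑_{w ≤ N} C(N,w) |c (N - 2w) + g(w)|`. -/
def certB (N c : ℕ) (g : ℕ → ℤ) : ℤ :=
  ∑ w ∈ range (N + 1), (N.choose w : ℤ) * |(c : ℤ) * ((N : ℤ) - 2 * (w : ℤ)) + g w|

/-- Every unit of the integers is `1` or `-1`, so a point of the cube is determined by the set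
of its `-1` coordinates. -/
theorem kr_pt_bijective : Function.Bijective (pt : Finset ι → ι → ℤˣ) := by
  constructor
  · intro U V h
    ext i
    have hi := congrFun h i
    unfold pt at hi
    by_cases hU : i ∈ U <;> by_cases hV : i ∈ V
    · exact ⟨fun _ => hV, fun _ => hU⟩
    · rw [if_pos hU, if_neg hV] at hi
      exact absurd hi (by decide)
    · rw [if_neg hU, if_pos hV] at hi
      exact absurd hi (by decide)
    · exact ⟨fun h' => absurd h' hU, fun h' => absurd h' hV⟩
  · intro x
    refine ⟨univ.filter fun i => x i = -1, ?_⟩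
    funext i
    unfold pt
    by_cases hi : x i = -1
    · rw [if_pos (by simp [hi]), hi]
    · rw [if_neg (by simp [hi])]
      rcases Int.units_eq_one_or (x i) with h | h
      · exact h.symm
      · exact absurd h hi

theorem kr_negc_pt (U : Finset ι) : negc (pt U) = U.card := by
  unfold negc
  congr 1
  ext i
  simp only [mem_filter, mem_univ, true_and]
  unfold pt
  by_cases hU : i ∈ U
  · rw [if_pos hU]
    exact ⟨fun _ => hU, fun _ => rfl⟩
  · rw [if_neg hU]
    exact ⟨fun h => absurd h (by decide), fun h => absurd h hU⟩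

omit [Fintype ι] in
theorem kr_chi_pt (S U : Finset ι) :
    ∏ i ∈ S, ((pt U i : ℤˣ) : ℤ) = (-1) ^ (U ∩ S).card := by
  have h1 : ∀ i, ((pt U i : ℤˣ) : ℤ) = if i ∈ U then (-1 : ℤ) else 1 := by
    intro i
    unfold pt
    split_ifs <;> simp
  simp_rw [h1]
  rw [Finset.prod_ite_mem, Finset.prod_const, Finset.inter_comm]

/-- Splitting a set into its parts inside and outside `S`. -/
theorem kr_sum_split (S : Finset ι) (F : ℕ → ℕ → ℤ) :
    ∑ U : Finset ι, F (U ∩ S).card (U \ S).card =
      ∑ A ∈ S.powerset, ∑ B ∈ Sᶜ.powerset, F A.card B.card := by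
  rw [← Finset.sum_product']
  refine Finset.sum_bij' (fun U _ => (U ∩ S, U \ S)) (fun p _ => p.1 ∪ p.2) ?_ ?_ ?_ ?_ ?_
  · intro U _
    rw [Finset.mem_product, Finset.mem_powerset, Finset.mem_powerset]
    refine ⟨Finset.inter_subset_right, ?_⟩
    intro i hi
    rw [Finset.mem_sdiff] at hi
    rw [Finset.mem_compl]
    exact hi.2
  · intro p _
    exact Finset.mem_univ _
  · intro U _
    ext i
    simp only [Finset.mem_union, Finset.mem_inter, Finset.mem_sdiff]
    tauto
  · intro p hp
    rw [Finset.mem_product, Finset.mem_powerset, Finset.mem_powerset] at hp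
    obtain ⟨hA, hB⟩ := hp
    have hB' : ∀ i, i ∈ p.2 → i ∉ S := fun i hi => Finset.mem_compl.mp (hB hi)
    refine Prod.ext ?_ ?_
    · ext i
      simp only [Finset.mem_union, Finset.mem_inter]
      constructor
      · rintro ⟨h | h, hS⟩
        · exact h
        · exact absurd hS (hB' i h)
      · intro h
        exact ⟨Or.inl h, hA h⟩
    · ext i
      simp only [Finset.mem_union, Finset.mem_sdiff]
      constructor
      · rintro ⟨h | h, hS⟩
        · exact absurd (hA h) hS
        · exact h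
      · intro h
        exact ⟨Or.inr h, hB' i h⟩
  · intro U _
    rfl

/-- Character sums of a function of the number of `-1` coordinates. -/
theorem sum_chi_negc (S : Finset ι) (g : ℕ → ℤ) :
    ∑ x : ι → ℤˣ, (∏ i ∈ S, ((x i : ℤˣ) : ℤ)) * g (negc x) =
      kraw (Fintype.card ι) S.card g := by
  classical
  rw [← kr_pt_bijective.sum_comp (fun x : ι → ℤˣ => (∏ i ∈ S, ((x i : ℤˣ) : ℤ)) * g (negc x))]
  have h1 : ∀ U : Finset ι, (∏ i ∈ S, ((pt U i : ℤˣ) : ℤ)) * g (negc (pt U)) =
      (fun a b : ℕ => (-1 : ℤ) ^ a * g (a + b)) (U ∩ S).card (U \ S).card := by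
    intro U
    rw [kr_chi_pt, kr_negc_pt]
    have hc : U.card = (U ∩ S).card + (U \ S).card := by
      have := Finset.card_sdiff_add_card_inter U S
      omega
    dsimp only
    rw [← hc]
  rw [Finset.sum_congr rfl (fun U _ => h1 U),
    kr_sum_split S (fun a b : ℕ => (-1 : ℤ) ^ a * g (a + b))]
  have h2 : ∀ a : ℕ, ∑ B ∈ Sᶜ.powerset, (-1 : ℤ) ^ a * g (a + B.card) =
      ∑ b ∈ range (Fintype.card ι - S.card + 1),
        ((Fintype.card ι - S.card).choose b : ℤ) * ((-1 : ℤ) ^ a * g (a + b)) := by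
    intro a
    rw [Finset.sum_powerset_apply_card (fun b => (-1 : ℤ) ^ a * g (a + b)), Finset.card_compl]
    refine Finset.sum_congr rfl (fun b _ => ?_)
    rw [nsmul_eq_mul]
  rw [Finset.sum_congr rfl (fun A _ => h2 A.card),
    Finset.sum_powerset_apply_card (fun a => ∑ b ∈ range (Fintype.card ι - S.card + 1),
        ((Fintype.card ι - S.card).choose b : ℤ) * ((-1 : ℤ) ^ a * g (a + b)))]
  unfold kraw
  refine Finset.sum_congr rfl (fun a _ => ?_)
  rw [nsmul_eq_mul, Finset.mul_sum]
  refine Finset.sum_congr rfl (fun b _ => ?_)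
  ring

end Vale.Agent.Lib.P047
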