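import Vale.Agent.Lib.P047.Dual.Kraw

/-!
# P047: the level-one sum of any function on `N` bits is at most `√(2 (N + 1) / 3)`

`certB N 1 0 = ∑_{w ≤ N} C(N,w) |N - 2w| = 2^N E|X_1 + ... + X_N|`, and
`3 (∑_{w ≤ N} C(N,w) |N - 2w|)^2 ≤ 2 (N + 1) 4^N`.
-/

namespace Vale.Agent.Lib.P047

open Finset

/-- The sum `A_N = ∑_{w ≤ N} C(N,w) |N - 2w|`. -/
def mj_A (N : ℕ) : ℤ := ∑ w ∈ range (N + 1), (N.choose w : ℤ) * |(N : ℤ) - 2 * (w : ℤ)|

theorem mj_certB_eq (N : ℕ) : certB N 1 (fun _ => 0) = mj_A N := by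
  unfold certB mj_A
  refine Finset.sum_congr rfl (fun w _ => ?_)
  simp

theorem mj_abs (x : ℤ) : |x + 1| + |x - 1| = 2 * |x| + (if x = 0 then 2 else 0) := by
  rcases lt_trichotomy x 0 with h | h | h
  · rw [abs_of_nonpos (by omega : x + 1 ≤ 0), abs_of_nonpos (by omega : x - 1 ≤ 0),
      abs_of_nonpos (by omega : x ≤ 0), if_neg (by omega)]
    ring
  · subst h
    simp
  · rw [abs_of_nonneg (by omega : 0 ≤ x + 1), abs_of_nonneg (by omega : 0 ≤ x - 1),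
      abs_of_nonneg (by omega : 0 ≤ x), if_neg (by omega)]
    ring

/-- The recurrence `A_{N+1} = 2 A_N + 2 ∑_w C(N,w) [N = 2w]`. -/
theorem mj_rec (N : ℕ) :
    mj_A (N + 1) = 2 * mj_A N
      + ∑ w ∈ range (N + 1), (N.choose w : ℤ) * (if (N : ℤ) - 2 * (w : ℤ) = 0 then 2 else 0) := by
  have h1 : mj_A (N + 1)
      = ∑ w ∈ range (N + 1), (N.choose w : ℤ) * |(N : ℤ) - 2 * (w : ℤ) - 1|
        + ∑ w ∈ range (N + 1), (N.choose (w + 1) : ℤ) * |(N : ℤ) + 1 - 2 * ((w + 1 : ℕ) : ℤ)|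
        + ((N : ℤ) + 1) := by
    unfold mj_A
    rw [Finset.sum_range_succ' _ (N + 1), ← Finset.sum_add_distrib]
    congr 1
    · refine Finset.sum_congr rfl (fun w _ => ?_)
      rw [Nat.choose_succ_succ]
      push_cast
      have e : ((N : ℤ) + 1 - 2 * ((w : ℤ) + 1)) = (N : ℤ) - 2 * (w : ℤ) - 1 := by ring
      rw [e]
      ring
    · simp only [Nat.choose_zero_right, Nat.cast_one, one_mul, Nat.cast_zero, mul_zero,
        sub_zero, Nat.cast_add]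
      exact abs_of_nonneg (by positivity)
  have h2 : ∑ w ∈ range (N + 1), (N.choose (w + 1) : ℤ) * |(N : ℤ) + 1 - 2 * ((w + 1 : ℕ) : ℤ)|
      = ∑ w ∈ range (N + 1), (N.choose w : ℤ) * |(N : ℤ) - 2 * (w : ℤ) + 1| - ((N : ℤ) + 1) := by
    have e1 := Finset.sum_range_succ'
      (fun w : ℕ => (N.choose w : ℤ) * |(N : ℤ) + 1 - 2 * ((w : ℕ) : ℤ)|) (N + 1)
    have e2 := Finset.sum_range_succ
      (fun w : ℕ => (N.choose w : ℤ) * |(N : ℤ) + 1 - 2 * ((w : ℕ) : ℤ)|) (N + 1)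
    have e3 : (N.choose (N + 1) : ℤ) = 0 := by
      rw [Nat.choose_succ_self]
      rfl
    have e4 : |(N : ℤ) + 1 - 2 * ((0 : ℕ) : ℤ)| = (N : ℤ) + 1 := by
      simp only [Nat.cast_zero, mul_zero, sub_zero]
      exact abs_of_nonneg (by positivity)
    simp only [e3, zero_mul, add_zero, Nat.choose_zero_right, Nat.cast_one, one_mul, e4] at e1 e2
    have e5 : ∑ w ∈ range (N + 1), (N.choose w : ℤ) * |(N : ℤ) - 2 * (w : ℤ) + 1|
        = ∑ w ∈ range (N + 1), (N.choose w : ℤ) * |(N : ℤ) + 1 - 2 * ((w : ℕ) : ℤ)| := by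
      refine Finset.sum_congr rfl (fun w _ => ?_)
      have e : (N : ℤ) - 2 * (w : ℤ) + 1 = (N : ℤ) + 1 - 2 * (w : ℤ) := by ring
      rw [e]
    rw [e5]
    linarith
  rw [h1, h2]
  have h3 : ∑ w ∈ range (N + 1), (N.choose w : ℤ) * |(N : ℤ) - 2 * (w : ℤ) - 1|
        + ∑ w ∈ range (N + 1), (N.choose w : ℤ) * |(N : ℤ) - 2 * (w : ℤ) + 1|
      = 2 * mj_A N + ∑ w ∈ range (N + 1),
          (N.choose w : ℤ) * (if (N : ℤ) - 2 * (w : ℤ) = 0 then 2 else 0) := by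
    unfold mj_A
    rw [← Finset.sum_add_distrib, Finset.mul_sum, ← Finset.sum_add_distrib]
    refine Finset.sum_congr rfl (fun w _ => ?_)
    have := mj_abs ((N : ℤ) - 2 * (w : ℤ))
    linear_combination (N.choose w : ℤ) * this
  linarith

theorem mj_corr_even (m : ℕ) :
    ∑ w ∈ range (2 * m + 1),
        ((2 * m).choose w : ℤ) * (if ((2 * m : ℕ) : ℤ) - 2 * (w : ℤ) = 0 then 2 else 0)
      = 2 * (m.centralBinom : ℤ) := by
  rw [Finset.sum_eq_single m]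
  · rw [if_pos (by push_cast; ring), Nat.centralBinom_eq_two_mul_choose]
    ring
  · intro w _ hw
    rw [if_neg (by push_cast; omega), mul_zero]
  · intro h
    exact absurd (Finset.mem_range.mpr (by omega)) h

theorem mj_corr_odd (m : ℕ) :
    ∑ w ∈ range (2 * m + 1 + 1),
        ((2 * m + 1).choose w : ℤ) * (if ((2 * m + 1 : ℕ) : ℤ) - 2 * (w : ℤ) = 0 then 2 else 0)
      = 0 := by
  refine Finset.sum_eq_zero (fun w _ => ?_)
  rw [if_neg (by push_cast; omega), mul_zero]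

theorem mj_even (m : ℕ) : mj_A (2 * m) = 2 * (m : ℤ) * (m.centralBinom : ℤ) := by
  induction m with
  | zero => simp [mj_A]
  | succ m ih =>
    have e1 : mj_A (2 * m + 1) = 2 * mj_A (2 * m) + 2 * (m.centralBinom : ℤ) := by
      rw [mj_rec (2 * m), mj_corr_even]
    have e2 : mj_A (2 * m + 1 + 1) = 2 * mj_A (2 * m + 1) := by
      rw [mj_rec (2 * m + 1), mj_corr_odd, add_zero]
    have e3 : ((m : ℤ) + 1) * ((m + 1).centralBinom : ℤ)
        = 2 * (2 * (m : ℤ) + 1) * (m.centralBinom : ℤ) := by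
      exact_mod_cast Nat.succ_mul_centralBinom_succ m
    have e4 : 2 * (m + 1) = 2 * m + 1 + 1 := by ring
    rw [e4, e2, e1, ih]
    push_cast
    linear_combination (-2 : ℤ) * e3

theorem mj_odd (m : ℕ) : mj_A (2 * m + 1) = 2 * (2 * (m : ℤ) + 1) * (m.centralBinom : ℤ) := by
  rw [mj_rec (2 * m), mj_corr_even, mj_even]
  ring

/-- The central binomial bound `16^m ≥ (3 m + 1) C(2m, m)^2`. -/
theorem mj_central (m : ℕ) : (3 * m + 1) * m.centralBinom ^ 2 ≤ 16 ^ m := by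
  induction m with
  | zero => simp
  | succ m ih =>
    have e := Nat.succ_mul_centralBinom_succ m
    have hpos : 0 < (m + 1) ^ 2 := by positivity
    refine Nat.le_of_mul_le_mul_left ?_ hpos
    have e2 : (m + 1) ^ 2 * (m + 1).centralBinom ^ 2
        = 4 * (2 * m + 1) ^ 2 * m.centralBinom ^ 2 := by
      calc (m + 1) ^ 2 * (m + 1).centralBinom ^ 2
          = ((m + 1) * (m + 1).centralBinom) ^ 2 := by ring
        _ = (2 * (2 * m + 1) * m.centralBinom) ^ 2 := by rw [e]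
        _ = 4 * (2 * m + 1) ^ 2 * m.centralBinom ^ 2 := by ring
    have e3 : (3 * (m + 1) + 1) * (2 * m + 1) ^ 2 ≤ (3 * m + 1) * (2 * m + 2) ^ 2 := by
      nlinarith [Nat.zero_le m]
    calc (m + 1) ^ 2 * ((3 * (m + 1) + 1) * (m + 1).centralBinom ^ 2)
        = (3 * (m + 1) + 1) * ((m + 1) ^ 2 * (m + 1).centralBinom ^ 2) := by ring
      _ = 4 * ((3 * (m + 1) + 1) * (2 * m + 1) ^ 2) * m.centralBinom ^ 2 := by rw [e2]; ring
      _ ≤ 4 * ((3 * m + 1) * (2 * m + 2) ^ 2) * m.centralBinom ^ 2 :=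
          Nat.mul_le_mul_right _ (Nat.mul_le_mul_left _ e3)
      _ = 16 * (m + 1) ^ 2 * ((3 * m + 1) * m.centralBinom ^ 2) := by ring
      _ ≤ 16 * (m + 1) ^ 2 * 16 ^ m := Nat.mul_le_mul_left _ ih
      _ = (m + 1) ^ 2 * 16 ^ (m + 1) := by ring

/-- `3 (∑_{w ≤ N} C(N,w) |N - 2w|)^2 ≤ 2 (N + 1) 4^N`. -/
theorem three_certB_sq_le (N : ℕ) :
    3 * (certB N 1 (fun _ => 0)) ^ 2 ≤ 2 * ((N : ℤ) + 1) * 4 ^ N := by
  rw [mj_certB_eq]
  obtain ⟨m, rfl | rfl⟩ := Nat.even_or_odd' N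
  · rw [mj_even]
    have hc : ((3 * m + 1) * m.centralBinom ^ 2 : ℤ) ≤ 16 ^ m := by
      exact_mod_cast mj_central m
    have h4 : (4 : ℤ) ^ (2 * m) = 16 ^ m := by
      rw [pow_mul]
      norm_num
    rw [h4]
    have hm : (0 : ℤ) ≤ m := Int.natCast_nonneg m
    have hb : (0 : ℤ) ≤ (m.centralBinom : ℤ) ^ 2 := by positivity
    have h16 : (0 : ℤ) < 16 ^ m := by positivity
    have hpos : (0 : ℤ) < 3 * m + 1 := by positivity
    refine le_of_mul_le_mul_left ?_ hpos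
    push_cast
    calc (3 * (m : ℤ) + 1) * (3 * (2 * (m : ℤ) * (m.centralBinom : ℤ)) ^ 2)
        = 12 * (m : ℤ) ^ 2 * ((3 * m + 1) * (m.centralBinom : ℤ) ^ 2) := by ring
      _ ≤ 12 * (m : ℤ) ^ 2 * 16 ^ m := mul_le_mul_of_nonneg_left hc (by positivity)
      _ ≤ (3 * (m : ℤ) + 1) * (2 * (2 * (m : ℤ) + 1) * 16 ^ m) := by nlinarith
  · rw [mj_odd]
    have hc : ((3 * m + 1) * m.centralBinom ^ 2 : ℤ) ≤ 16 ^ m := by
      exact_mod_cast mj_central m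
    have h4 : (4 : ℤ) ^ (2 * m + 1) = 4 * 16 ^ m := by
      rw [pow_succ, pow_mul]
      norm_num
      ring
    rw [h4]
    have hm : (0 : ℤ) ≤ m := Int.natCast_nonneg m
    have h16 : (0 : ℤ) < 16 ^ m := by positivity
    have hpos : (0 : ℤ) < 3 * m + 1 := by positivity
    refine le_of_mul_le_mul_left ?_ hpos
    push_cast
    calc (3 * (m : ℤ) + 1) * (3 * (2 * (2 * (m : ℤ) + 1) * (m.centralBinom : ℤ)) ^ 2)
        = 12 * (2 * (m : ℤ) + 1) ^ 2 * ((3 * m + 1) * (m.centralBinom : ℤ) ^ 2) := by ring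
      _ ≤ 12 * (2 * (m : ℤ) + 1) ^ 2 * 16 ^ m := mul_le_mul_of_nonneg_left hc (by positivity)
      _ ≤ (3 * (m : ℤ) + 1) * (2 * (2 * (m : ℤ) + 1 + 1) * (4 * 16 ^ m)) := by nlinarith

end Vale.Agent.Lib.P047
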