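import Vale.Agent.Lib.P047.Dual.Main
import Vale.Agent.Lib.P047.Dual.Majority

/-!
# P047: the square-root bound when the degree is at least two thirds of the number of variables

For every Boolean function on `n` bits the level-one sum is at most `E|X_1 + ... + X_n|`, and
the square of that is at most `2 (n + 1) / 3`.  Hence `2 (n + 1) ≤ 3 deg f` gives the bound
`√(deg f)`.
-/

namespace Vale.Agent.Lib.P047

open Finset

theorem kraw_zero (N k : ℕ) : kraw N k (fun _ => 0) = 0 := by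
  unfold kraw
  simp

/-- If `2 (n + 1) ≤ 3 deg f` then the level-one sum is at most `√(deg f)`. -/
theorem level_one_le_sqrt_of_large_degree (n : ℕ) (f : (Fin n → ℤˣ) → ℤˣ)
    (h : 2 * (n + 1) ≤ 3 * degree f) : ∑ i, |fourier f {i}| ≤ Real.sqrt (degree f) := by
  have h1 := level_one_abs_le_of_cert f (Fintype.card (Fin n)) (degree_le_card f) 1
    (fun _ => 0) (fun k _ => kraw_zero _ k)
  rw [Fintype.card_fin] at h1
  have h2 := three_certB_sq_le n
  set B : ℤ := certB n 1 (fun _ => 0) with hB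
  set S : ℝ := ∑ i, |fourier f {i}| with hS
  have hS0 : 0 ≤ S := Finset.sum_nonneg fun i _ => abs_nonneg _
  have h1' : (2 : ℝ) ^ n * S ≤ (B : ℝ) := by
    simpa using h1
  have h3 : ((2 : ℝ) ^ n * S) ^ 2 ≤ (B : ℝ) ^ 2 :=
    pow_le_pow_left₀ (by positivity) h1' 2
  have h4 : (3 : ℝ) * (B : ℝ) ^ 2 ≤ 2 * ((n : ℝ) + 1) * 4 ^ n := by
    exact_mod_cast h2
  have h5 : (2 : ℝ) * ((n : ℝ) + 1) ≤ 3 * (degree f : ℝ) := by
    exact_mod_cast h
  have h6 : ((4 : ℝ)) ^ n = (2 ^ n) ^ 2 := by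
    rw [← pow_mul, mul_comm, pow_mul]; norm_num
  have h4n : (0 : ℝ) < 4 ^ n := by positivity
  apply Real.le_sqrt_of_sq_le
  have h7 : 3 * (4 : ℝ) ^ n * S ^ 2 ≤ 3 * (4 : ℝ) ^ n * (degree f : ℝ) := by
    calc 3 * (4 : ℝ) ^ n * S ^ 2 = 3 * ((2 : ℝ) ^ n * S) ^ 2 := by rw [h6]; ring
      _ ≤ 3 * (B : ℝ) ^ 2 := by linarith
      _ ≤ 2 * ((n : ℝ) + 1) * 4 ^ n := h4
      _ ≤ 3 * (degree f : ℝ) * 4 ^ n := by nlinarith
      _ = 3 * (4 : ℝ) ^ n * (degree f : ℝ) := by ring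
  exact le_of_mul_le_mul_left h7 (by positivity)

end Vale.Agent.Lib.P047
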