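import Vale.Agent.Lib.P047.Dual.Kraw

/-!
# P047: the table of dual certificates for `6 ≤ d ≤ N ≤ 14`

`certC N d` and `certG N d` are a positive integer `c` and the list of values `g(0), ..., g(N)` of
a function of the number of `-1` coordinates, with `kraw N k g = 0` for `k ≤ d` and
`(∑_w C(N,w) |c (N - 2w) + g(w)|)^2 ≤ c^2 4^N d`. They were found by solving, in exact rational
arithmetic, the linear programme dual to: maximise the level-one sum over polynomials of degree
at most `d` in the number of `-1` coordinates that are bounded by `1` at `0, ..., N`.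
-/

namespace Vale.Agent.Lib.P047

/-- The function with the listed values (and `0` beyond the list). -/
def gOf (l : List ℤ) : ℕ → ℤ := fun w => l.getD w 0

/-- The multiplier of the certificate for `N` variables and degree `d`. -/
def certC (N d : ℕ) : ℕ :=
  if N = 9 ∧ d = 6 then 3
  else if N = 10 ∧ d = 6 then 5
  else if N = 11 ∧ d = 6 then 5
  else if N = 11 ∧ d = 7 then 3
  else if N = 11 ∧ d = 8 then 3
  else if N = 12 ∧ d = 6 then 45
  else if N = 12 ∧ d = 7 then 175
  else if N = 12 ∧ d = 8 then 35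
  else if N = 13 ∧ d = 6 then 175
  else if N = 13 ∧ d = 7 then 5
  else if N = 13 ∧ d = 8 then 5
  else if N = 13 ∧ d = 9 then 5
  else if N = 13 ∧ d = 10 then 5
  else if N = 14 ∧ d = 6 then 825
  else if N = 14 ∧ d = 7 then 45
  else if N = 14 ∧ d = 8 then 45
  else if N = 14 ∧ d = 9 then 35
  else if N = 14 ∧ d = 10 then 35
  else 1

/-- The values of the certificate for `N` variables and degree `d`. -/
def certG (N d : ℕ) : List ℤ :=
  if N = 7 ∧ d = 6 then [1, -1, 1, -1, 1, -1, 1, -1]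
  else if N = 8 ∧ d = 6 then [8, -6, 4, -2, 0, 2, -4, 6, -8]
  else if N = 9 ∧ d = 6 then [37, -21, 9, -1, -3, 3, 1, -9, 21, -37]
  else if N = 9 ∧ d = 7 then [-1, 1, -1, 1, -1, 1, -1, 1, -1, 1]
  else if N = 9 ∧ d = 8 then [-1, 1, -1, 1, -1, 1, -1, 1, -1, 1]
  else if N = 10 ∧ d = 6 then [110, -40, 2, 12, -10, 0, 10, -12, -2, 40, -110]
  else if N = 10 ∧ d = 7 then [-10, 8, -6, 4, -2, 0, 2, -4, 6, -8, 10]
  else if N = 10 ∧ d = 8 then [-10, 8, -6, 4, -2, 0, 2, -4, 6, -8, 10]
  else if N = 11 ∧ d = 6 then [265, -45, -35, 39, -15, -5, 5, 15, -39, 35, 45, -265]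
  else if N = 11 ∧ d = 7 then [-57, 37, -21, 9, -1, -3, 3, 1, -9, 21, -37, 57]
  else if N = 11 ∧ d = 8 then [-57, 37, -21, 9, -1, -3, 3, 1, -9, 21, -37, 57]
  else if N = 11 ∧ d = 9 then [1, -1, 1, -1, 1, -1, 1, -1, 1, -1, 1, -1]
  else if N = 11 ∧ d = 10 then [1, -1, 1, -1, 1, -1, 1, -1, 1, -1, 1, -1]
  else if N = 12 ∧ d = 6 then [3620, -450, -360, 242, 12, -90, 0, 90, -12, -242, 360, 450, -3620]
  else if N = 12 ∧ d = 7 then [-8820, 4170, -1400, 6, 452, -350, 0, 350, -516, 378, 120, -970, 2100]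
  else if N = 12 ∧ d = 8 then [-420, 130, 40, -114, 116, -70, 0, 70, -116, 114, -40, -130, 420]
  else if N = 12 ∧ d = 9 then [12, -10, 8, -6, 4, -2, 0, 2, -4, 6, -8, 10, -12]
  else if N = 12 ∧ d = 10 then [12, -10, 8, -6, 4, -2, 0, 2, -4, 6, -8, 10, -12]
  else if N = 13 ∧ d = 6 then [24605, -1925, -1575, 55, 917, -525, -175, 175, 525, -917, -55, 1575, 1925, -24605]
  else if N = 13 ∧ d = 7 then [-705, 265, -45, -35, 39, -15, -5, 5, 15, -39, 35, 45, -265, 705]
  else if N = 13 ∧ d = 8 then [-705, 265, -45, -35, 39, -15, -5, 5, 15, -39, 35, 45, -265, 705]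
  else if N = 13 ∧ d = 9 then [79, -55, 35, -19, 7, 1, -5, 5, -1, -7, 19, -35, 55, -79]
  else if N = 13 ∧ d = 10 then [79, -55, 35, -19, 7, 1, -5, 5, -1, -7, 19, -35, 55, -79]
  else if N = 13 ∧ d = 11 then [-1, 1, -1, 1, -1, 1, -1, 1, -1, 1, -1, 1, -1, 1]
  else if N = 13 ∧ d = 12 then [-1, 1, -1, 1, -1, 1, -1, 1, -1, 1, -1, 1, -1, 1]
  else if N = 14 ∧ d = 6 then [230626, -9900, -8250, -6600, 8874, -2276, -1650, 0, 1650, 2276, -8874, 6600, 8250, 9900, -230626]
  else if N = 14 ∧ d = 7 then [-11382, 3620, -450, -360, 242, 12, -90, 0, 90, -12, -242, 360, 450, -3620, 11382]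
  else if N = 14 ∧ d = 8 then [-11382, 3620, -450, -360, 242, 12, -90, 0, 90, -12, -242, 360, 450, -3620, 11382]
  else if N = 14 ∧ d = 9 then [854, -420, 130, 40, -114, 116, -70, 0, 70, -116, 114, -40, -130, 420, -854]
  else if N = 14 ∧ d = 10 then [854, -420, 130, 40, -114, 116, -70, 0, 70, -116, 114, -40, -130, 420, -854]
  else if N = 14 ∧ d = 11 then [-14, 12, -10, 8, -6, 4, -2, 0, 2, -4, 6, -8, 10, -12, 14]
  else if N = 14 ∧ d = 12 then [-14, 12, -10, 8, -6, 4, -2, 0, 2, -4, 6, -8, 10, -12, 14]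
  else []

/-- The certificate for `N` variables and degree `d` is valid and gives the bound `√d`. -/
def certOK (N d : ℕ) : Bool :=
  decide (0 < certC N d) &&
  (List.range (d + 1)).all (fun k => decide (kraw N k (gOf (certG N d)) = 0)) &&
  decide ((certB N (certC N d) (gOf (certG N d))) ^ 2 ≤ ((certC N d : ℕ) : ℤ) ^ 2 * 4 ^ N * (d : ℤ))

/-- The certificate for `N` variables and degree `d` gives the bound `p / q`. -/
def certLe (N d p q : ℕ) : Bool :=
  decide (certB N (certC N d) (gOf (certG N d)) * (q : ℤ) ≤ ((certC N d : ℕ) : ℤ) * 2 ^ N * (p : ℤ))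

theorem cert_all : ∀ N ∈ List.range 15, ∀ d ∈ List.range 15, 6 ≤ d → d ≤ N → certOK N d = true := by
  decide +kernel

theorem cert_eight : ∀ N ∈ List.range 13, 6 ≤ N → certLe N (min N 8) 39 16 = true := by
  decide +kernel

theorem cert_six : ∀ N ∈ List.range 12, 6 ≤ N → certLe N 6 17 8 = true := by
  decide +kernel

end Vale.Agent.Lib.P047
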