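import Vale.Agent.Lib.P047.Dual.Cert
import Vale.Agent.Lib.P047.Dual.Table
import Vale.Agent.Lib.P047.DegThree
import Vale.Agent.Lib.P047.D5.Main

/-!
# P047: every Boolean function on at most fourteen variables has level-one sum at most `√(deg f)`

Degrees up to five are covered by the general theorem; for `6 ≤ d ≤ n ≤ 14` the table of dual
certificates gives the bound.
-/

namespace Vale.Agent.Lib.P047

open Finset

theorem degree_le_card {ι : Type*} [Fintype ι] [DecidableEq ι] (f : (ι → ℤˣ) → ℤˣ) :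
    degree f ≤ Fintype.card ι :=
  degree_le_of f _ fun S _ => Finset.card_le_univ S

/-- Degrees up to five: the level-one sum is at most `√(deg f)`. -/
theorem level_one_le_sqrt_le_five {ι : Type*} [Fintype ι] [DecidableEq ι] (f : (ι → ℤˣ) → ℤˣ)
    (hd : degree f ≤ 5) : ∑ i, |fourier f {i}| ≤ Real.sqrt (degree f) := by
  by_cases hd4 : degree f ≤ 4
  · exact level_one_le_sqrt_degree f hd4
  · have hd5 : degree f = 5 := by omega
    rw [hd5]
    refine le_trans (level_one_le_seventeen_eighths f hd) ?_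
    apply Real.le_sqrt_of_sq_le
    norm_num

theorem certOK_unpack (N d : ℕ) (h : certOK N d = true) :
    0 < certC N d ∧ (∀ k, k ≤ d → kraw N k (gOf (certG N d)) = 0) ∧
      (certB N (certC N d) (gOf (certG N d))) ^ 2 ≤ ((certC N d : ℕ) : ℤ) ^ 2 * 4 ^ N * (d : ℤ) := by
  unfold certOK at h
  simp only [Bool.and_eq_true, decide_eq_true_eq, List.all_eq_true, List.mem_range] at h
  exact ⟨h.1.1, fun k hk => h.1.2 k (by omega), h.2⟩

/-- The bound given by the certificate for `n` variables and degree `d`. -/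
theorem level_one_le_cert (n d : ℕ) (f : (Fin n → ℤˣ) → ℤˣ) (hd : degree f ≤ d)
    (hK : ∀ k, k ≤ d → kraw n k (gOf (certG n d)) = 0) :
    ((certC n d : ℕ) : ℝ) * 2 ^ n * ∑ i, |fourier f {i}| ≤
      ((certB n (certC n d) (gOf (certG n d)) : ℤ) : ℝ) := by
  have h := level_one_abs_le_of_cert f d hd (certC n d) (gOf (certG n d))
    (by rw [Fintype.card_fin]; exact hK)
  rw [Fintype.card_fin] at h
  exact h

/-- Six to fourteen variables, degree at least six. -/
theorem level_one_le_sqrt_of_six_le (n : ℕ) (hn : n ≤ 14) (f : (Fin n → ℤˣ) → ℤˣ)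
    (h6 : 6 ≤ degree f) : ∑ i, |fourier f {i}| ≤ Real.sqrt (degree f) := by
  have hdn : degree f ≤ n := by
    have := degree_le_card f
    rwa [Fintype.card_fin] at this
  have hok : certOK n (degree f) = true :=
    cert_all n (by simp only [List.mem_range]; omega) (degree f)
      (by simp only [List.mem_range]; omega) h6 hdn
  obtain ⟨hc, hK, hB⟩ := certOK_unpack n (degree f) hok
  have h1 := level_one_le_cert n (degree f) f le_rfl hK
  set c : ℕ := certC n (degree f) with hcdef
  set B : ℤ := certB n c (gOf (certG n (degree f))) with hBdef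
  have hcpos : (0 : ℝ) < (c : ℝ) * 2 ^ n := by
    have : (0 : ℝ) < (c : ℝ) := by exact_mod_cast hc
    positivity
  have hBr : ((B : ℤ) : ℝ) ^ 2 ≤ ((c : ℝ) * 2 ^ n) ^ 2 * (degree f : ℝ) := by
    have h2 : ((B ^ 2 : ℤ) : ℝ) ≤ (((c : ℤ) ^ 2 * 4 ^ n * (degree f : ℤ) : ℤ) : ℝ) := by
      exact_mod_cast hB
    have h3 : ((4 : ℝ)) ^ n = (2 ^ n) ^ 2 := by
      rw [← pow_mul, mul_comm, pow_mul]; norm_num
    push_cast at h2
    rw [h3] at h2
    nlinarith [h2]
  have hS0 : 0 ≤ ∑ i, |fourier f {i}| := Finset.sum_nonneg fun i _ => abs_nonneg _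
  apply Real.le_sqrt_of_sq_le
  have h4 : ((c : ℝ) * 2 ^ n * ∑ i, |fourier f {i}|) ^ 2 ≤ ((B : ℤ) : ℝ) ^ 2 := by
    apply pow_le_pow_left₀ (by positivity) h1
  have h5 : ((c : ℝ) * 2 ^ n) ^ 2 * (∑ i, |fourier f {i}|) ^ 2 ≤
      ((c : ℝ) * 2 ^ n) ^ 2 * (degree f : ℝ) := by
    calc ((c : ℝ) * 2 ^ n) ^ 2 * (∑ i, |fourier f {i}|) ^ 2
        = ((c : ℝ) * 2 ^ n * ∑ i, |fourier f {i}|) ^ 2 := by ring
      _ ≤ ((B : ℤ) : ℝ) ^ 2 := h4
      _ ≤ ((c : ℝ) * 2 ^ n) ^ 2 * (degree f : ℝ) := hBr
  exact le_of_mul_le_mul_left h5 (by positivity)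

/-- Every Boolean function on at most fourteen variables satisfies the square-root bound. -/
theorem level_one_le_sqrt_of_card_le (n : ℕ) (hn : n ≤ 14) (f : (Fin n → ℤˣ) → ℤˣ) :
    ∑ i, |fourier f {i}| ≤ Real.sqrt (degree f) := by
  by_cases h5 : degree f ≤ 5
  · exact level_one_le_sqrt_le_five f h5
  · exact level_one_le_sqrt_of_six_le n hn f (by omega)

/-- A certificate with rational bound `p / q`. -/
theorem level_one_le_of_certLe (n d p q : ℕ) (hq : 0 < q) (f : (Fin n → ℤˣ) → ℤˣ)
    (hd : degree f ≤ d) (hok : certOK n d = true) (hle : certLe n d p q = true) :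
    ∑ i, |fourier f {i}| ≤ (p : ℝ) / (q : ℝ) := by
  obtain ⟨hc, hK, -⟩ := certOK_unpack n d hok
  have h1 := level_one_le_cert n d f hd hK
  unfold certLe at hle
  simp only [decide_eq_true_eq] at hle
  set c : ℕ := certC n d with hcdef
  set B : ℤ := certB n c (gOf (certG n d)) with hBdef
  have hcpos : (0 : ℝ) < (c : ℝ) * 2 ^ n := by
    have : (0 : ℝ) < (c : ℝ) := by exact_mod_cast hc
    positivity
  have hqpos : (0 : ℝ) < (q : ℝ) := by exact_mod_cast hq
  have h2 : ((B : ℤ) : ℝ) * (q : ℝ) ≤ (c : ℝ) * 2 ^ n * (p : ℝ) := by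
    have : ((B * (q : ℤ) : ℤ) : ℝ) ≤ ((((c : ℕ) : ℤ) * 2 ^ n * (p : ℤ) : ℤ) : ℝ) := by
      exact_mod_cast hle
    push_cast at this
    exact this
  rw [le_div_iff₀ hqpos]
  have h3 : (c : ℝ) * 2 ^ n * ((∑ i, |fourier f {i}|) * (q : ℝ)) ≤ (c : ℝ) * 2 ^ n * (p : ℝ) := by
    calc (c : ℝ) * 2 ^ n * ((∑ i, |fourier f {i}|) * (q : ℝ))
        = ((c : ℝ) * 2 ^ n * ∑ i, |fourier f {i}|) * (q : ℝ) := by ring
      _ ≤ ((B : ℤ) : ℝ) * (q : ℝ) := mul_le_mul_of_nonneg_right h1 hqpos.le
      _ ≤ (c : ℝ) * 2 ^ n * (p : ℝ) := h2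
  exact le_of_mul_le_mul_left h3 hcpos

/-- At most twelve variables and degree at most eight: the level-one sum is at most `39/16`. -/
theorem level_one_le_of_card_le_twelve (n : ℕ) (hn : n ≤ 12) (f : (Fin n → ℤˣ) → ℤˣ)
    (hd : degree f ≤ 8) : ∑ i, |fourier f {i}| ≤ 39 / 16 := by
  have hdn : degree f ≤ n := by
    have := degree_le_card f
    rwa [Fintype.card_fin] at this
  by_cases h5 : n ≤ 5
  · have := level_one_le_seventeen_eighths f (by omega)
    linarith
  · have h6 : 6 ≤ n := by omega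
    have hok : certOK n (min n 8) = true :=
      cert_all n (by simp only [List.mem_range]; omega) (min n 8)
        (by simp only [List.mem_range]; omega) (by omega) (by omega)
    have hle : certLe n (min n 8) 39 16 = true :=
      cert_eight n (by simp only [List.mem_range]; omega) h6
    have := level_one_le_of_certLe n (min n 8) 39 16 (by norm_num) f (by omega) hok hle
    norm_num at this
    exact this

/-- At most eleven variables and degree at most six: the level-one sum is at most `17/8`. -/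
theorem level_one_le_of_card_le_eleven (n : ℕ) (hn : n ≤ 11) (f : (Fin n → ℤˣ) → ℤˣ)
    (hd : degree f ≤ 6) : ∑ i, |fourier f {i}| ≤ 17 / 8 := by
  have hdn : degree f ≤ n := by
    have := degree_le_card f
    rwa [Fintype.card_fin] at this
  by_cases h5 : n ≤ 5
  · exact level_one_le_seventeen_eighths f (by omega)
  · have h6 : 6 ≤ n := by omega
    have hok : certOK n 6 = true :=
      cert_all n (by simp only [List.mem_range]; omega) 6
        (by simp only [List.mem_range]; omega) (by omega) (by omega)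
    have hle : certLe n 6 17 8 = true :=
      cert_six n (by simp only [List.mem_range]; omega) h6
    have := level_one_le_of_certLe n 6 17 8 (by norm_num) f hd hok hle
    norm_num at this
    exact this

end Vale.Agent.Lib.P047
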